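import Mathlib
import Vale.Agent.P052.Data

/-!
# P052: there is no 6-clique among the vertices `0, …, 351`

A depth first enumeration of all cliques with bit masks, in a form that the kernel evaluates
quickly (`force` makes the kernel compute the numeral before it is substituted).  The kernel hashes
numerals by their last 64 bits, so a set `x` is stored as `enc x`, whose last bits are a residue
of `x`.
-/

namespace Vale.Agent.P052

/-- `f n`, with `n` reduced to a numeral first. -/
noncomputable def force {α : Type} (n : ℕ) (f : ℕ → α) : α :=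
  Nat.rec (f 0) (fun m _ => f (Nat.succ m)) n

theorem force_eq {α : Type} (n : ℕ) (f : ℕ → α) : force n f = f n := by
  cases n <;> rfl

/-- Conjunction, evaluated from left to right. -/
noncomputable def guard (x y : Bool) : Bool := Bool.rec false y x

theorem guard_eq {x y : Bool} : guard x y = true ↔ x = true ∧ y = true := by
  cases x <;> cases y <;> decide

set_option exponentiation.threshold 400 in
/-- the neighbours of the vertex `i` among `0, …, 351`, as a bit mask -/
noncomputable def rowOf (i : ℕ) : ℕ :=
  Nat.land (Nat.shiftRight G (Nat.mul 416 i)) (Nat.sub (Nat.pow 2 352) 1)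

theorem rowOf_testBit (i j : ℕ) :
    (rowOf i).testBit j = (G.testBit (416 * i + j) && decide (j < 352)) := by
  have h1 : rowOf i = (G >>> (416 * i)) &&& (2 ^ 352 - 1) := rfl
  rw [h1, Nat.testBit_and, Nat.testBit_shiftRight, Nat.testBit_two_pow_sub_one]

/-- discrete logarithms to base 2 modulo 373 -/
def tbl : ℕ := 0xba5d8d178001a8317b22000ec6d1406b757d3891b5400fa1e2946e988aa701c626f2117f299cad648446b238010e7dc647a57530c470d24caca2caf4eb901e4f31a81bf4b429d180499539e741f5b4d24ace22849af0147c1c001687949f86d8d5407c7c2c1994e001902872db69a8d348259a322e2f583893c7272cc8210528538c80850a29c130a62210d413ad0d8293251de562774516775c1030d6f1f9aa564d0b679308ccb099e5b02c814b52159840a400000bbaa205e29d1dfa00374f63755a8d787e1a3e888b2f433b1550ed002e4660005c8475136e4dda8f95225d366141ca1684346c3630561834562ae719393f4a39921cc1e99b34230083054a26ca79ecca0004b694481458b9c27198c129a0744cbd0f40a1248ec26a256d851e4a42896ca3c0ae595814001d25da30027954ae86442f3623b170009044a6cf84b1824e4286155a0ad26d248e1d663fc286b3d001b280169c20606974fd2225ad47612c91555c005c0054c30f275d8222f72f904a8aca4071fc6a001fcde059f09238c8ab16ea4f1afbd880ab0d9a4fc0411b1cb4f07aaa8d003633bd5202770040000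

/-- code of a set (with a residue in the last 64 bits) -/
noncomputable def enc (x : ℕ) : ℕ :=
  Nat.add (Nat.shiftLeft x 64) (Nat.mod x 2305843009213693951)

/-- the set with code `C` -/
noncomputable def dec (C : ℕ) : ℕ := Nat.shiftRight C 64

theorem dec_enc (x : ℕ) : dec (enc x) = x := by
  have h1 : dec (enc x) = (x <<< 64 + x % 2305843009213693951) >>> 64 := rfl
  rw [h1, Nat.shiftRight_eq_div_pow, Nat.shiftLeft_eq]
  have h2 : x % 2305843009213693951 < 2305843009213693951 := Nat.mod_lt _ (by norm_num)
  omega

theorem dec_zero : dec 0 = 0 := rfl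

/-- an oracle: the position of the lowest bit of `dec C` (nothing is proved about it) -/
noncomputable def idx (C : ℕ) : ℕ :=
  Nat.land (Nat.shiftRight tbl (Nat.mul 9 (Nat.mod (Nat.xor (Nat.shiftRight C 64)
    (Nat.land (Nat.shiftRight C 64) (Nat.sub (Nat.shiftRight C 64) 1))) 373))) 511

/-- `lp step fuel C`: take a vertex `i` out of the set and let `step` check its neighbours in the
rest; repeat until the set is empty. -/
noncomputable def lp (step : ℕ → Bool) (fuel : ℕ) : ℕ → Bool :=
  Nat.rec (fun _ => false)
    (fun _ ih C => Bool.rec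
      (force (idx C) fun i => force (enc (Nat.xor (dec C) (Nat.shiftLeft 1 i))) fun C' =>
        force (enc (Nat.land (dec C') (rowOf i))) fun D => guard (step D) (ih C'))
      true (Nat.beq C 0)) fuel

/-- there is no `k`-clique in the set `c` (of vertices below 352) -/
def NoClq (k c : ℕ) : Prop :=
  ∀ s : Finset ℕ, (∀ v ∈ s, c.testBit v = true ∧ v < 352) →
    (∀ v ∈ s, ∀ w ∈ s, v ≠ w → G.testBit (416 * v + w) = true) → s.card < k

theorem NoClq.one : NoClq 1 0 := by
  intro s hs _
  rw [Nat.lt_one_iff, Finset.card_eq_zero]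
  apply Finset.eq_empty_of_forall_notMem
  intro v hv
  have := (hs v hv).1
  simp at this

theorem NoClq.zero_set (k : ℕ) : NoClq (k + 1) 0 := by
  intro s hs _
  have : s = ∅ := by
    apply Finset.eq_empty_of_forall_notMem
    intro v hv
    have := (hs v hv).1
    simp at this
  rw [this, Finset.card_empty]
  exact Nat.succ_pos k

theorem NoClq.step {k c i : ℕ} (h1 : NoClq k ((c ^^^ (1 <<< i)) &&& rowOf i))
    (h2 : NoClq (k + 1) (c ^^^ (1 <<< i))) : NoClq (k + 1) c := by
  intro s hs hadj
  have hbit : ∀ v ∈ s, v ≠ i → (c ^^^ (1 <<< i)).testBit v = true := by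
    intro v hv hvi
    rw [Nat.testBit_xor, Nat.one_shiftLeft, Nat.testBit_two_pow, (hs v hv).1]
    simp [hvi.symm]
  by_cases hi : i ∈ s
  · have h3 := h1 (s.erase i) ?_ ?_
    · rw [Finset.card_erase_of_mem hi] at h3
      have : 0 < s.card := Finset.card_pos.2 ⟨i, hi⟩
      omega
    · intro v hv
      have hvs := Finset.mem_of_mem_erase hv
      have hvi : v ≠ i := Finset.ne_of_mem_erase hv
      refine ⟨?_, (hs v hvs).2⟩
      rw [Nat.testBit_and, hbit v hvs hvi, rowOf_testBit, hadj i hi v hvs hvi.symm]
      simp [(hs v hvs).2]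
    · intro v hv w hw hvw
      exact hadj v (Finset.mem_of_mem_erase hv) w (Finset.mem_of_mem_erase hw) hvw
  · exact h2 s (fun v hv => ⟨hbit v hv (fun h => hi (h ▸ hv)), (hs v hv).2⟩) hadj

theorem lp_sound {step : ℕ → Bool} {k : ℕ} (hstep : ∀ D, step D = true → NoClq k (dec D))
    (fuel : ℕ) : ∀ C, lp step fuel C = true → NoClq (k + 1) (dec C) := by
  induction fuel with
  | zero =>
    intro C h
    have h1 : lp step 0 C = false := rfl
    rw [h1] at h
    exact absurd h Bool.false_ne_true
  | succ n ih =>
    intro C h
    have h1 : (Bool.rec (motive := fun _ => Bool)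
      (force (idx C) fun i => force (enc (Nat.xor (dec C) (Nat.shiftLeft 1 i))) fun C' =>
        force (enc (Nat.land (dec C') (rowOf i))) fun D => guard (step D) (lp step n C'))
      true (Nat.beq C 0)) = true := h
    cases hb : Nat.beq C 0 with
    | true =>
      have : C = 0 := Nat.eq_of_beq_eq_true hb
      subst this
      rw [dec_zero]
      exact NoClq.zero_set k
    | false =>
      rw [hb] at h1
      have h2 : (force (idx C) fun i => force (enc (Nat.xor (dec C) (Nat.shiftLeft 1 i))) fun C' =>
        force (enc (Nat.land (dec C') (rowOf i))) fun D => guard (step D) (lp step n C')) = true :=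
        h1
      rw [force_eq, force_eq, force_eq, guard_eq] at h2
      have h3 := hstep _ h2.1
      have h4 := ih _ h2.2
      rw [dec_enc, dec_enc] at h3
      rw [dec_enc] at h4
      exact NoClq.step h3 h4

/-- no `k + 1`-clique, for `k = 0, 1, 2, …` -/
noncomputable def L : ℕ → ℕ → Bool :=
  Nat.rec (fun C => Nat.beq C 0) (fun _ ih => lp ih 353)

theorem L_sound (k : ℕ) : ∀ C, L k C = true → NoClq (k + 1) (dec C) := by
  induction k with
  | zero =>
    intro C h
    have : C = 0 := Nat.eq_of_beq_eq_true h
    subst this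
    exact NoClq.one
  | succ k ih =>
    intro C h
    exact lp_sound ih 353 C h

/-- the top level of the enumeration: the vertices `a, …, a + n - 1` as largest vertex -/
noncomputable def top (a n : ℕ) : Bool :=
  Nat.rec true (fun k ih => guard
    (force (Nat.add a k) fun i =>
      force (enc (Nat.land (Nat.sub (Nat.pow 2 i) 1) (rowOf i))) fun D => L 4 D) ih) n

theorem top_sound (a n : ℕ) (h : top a n = true) (i : ℕ) (h1 : a ≤ i) (h2 : i < a + n) :
    NoClq 5 ((2 ^ i - 1) &&& rowOf i) := by
  induction n with
  | zero => omega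
  | succ n ih =>
    have h3 : guard (force (Nat.add a n) fun i =>
      force (enc (Nat.land (Nat.sub (Nat.pow 2 i) 1) (rowOf i))) fun D => L 4 D) (top a n) = true :=
      h
    rw [guard_eq, force_eq, force_eq] at h3
    rcases Nat.lt_or_ge i (a + n) with h4 | h4
    · exact ih h3.2 h4
    · have : i = a + n := by omega
      subst this
      have h5 := L_sound 4 _ h3.1
      rwa [dec_enc] at h5

/-- If the enumeration succeeds for every largest vertex, there is no 6-clique. -/
theorem no_six_of (h : ∀ i < 352, NoClq 5 ((2 ^ i - 1) &&& rowOf i))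
    (s : Finset ℕ) (hs : ∀ v ∈ s, v < 352)
    (hadj : ∀ v ∈ s, ∀ w ∈ s, v ≠ w → G.testBit (416 * v + w) = true) : s.card ≤ 5 := by
  rcases s.eq_empty_or_nonempty with rfl | hne
  · simp
  · set i := s.max' hne with hi
    have him : i ∈ s := s.max'_mem hne
    have h1 := h i (hs i him) (s.erase i) ?_ ?_
    · rw [Finset.card_erase_of_mem him] at h1
      omega
    · intro v hv
      have hvs := Finset.mem_of_mem_erase hv
      have hvi : v ≠ i := Finset.ne_of_mem_erase hv
      have hlt : v < i := lt_of_le_of_ne (s.le_max' v hvs) hvi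
      refine ⟨?_, hs v hvs⟩
      rw [Nat.testBit_and, Nat.testBit_two_pow_sub_one, rowOf_testBit,
        hadj i him v hvs hvi.symm]
      simp [hlt, hs v hvs]
    · intro v hv w hw hvw
      exact hadj v (Finset.mem_of_mem_erase hv) w (Finset.mem_of_mem_erase hw) hvw

end Vale.Agent.P052
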