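import Vale.Agent.P052.Cut

/-!
# P052: all dimensions at least 64, by adding apices
-/

namespace Vale.Agent.P052

open Matrix

/-- A finite spherical configuration in dimension `d` whose points cannot be coloured with
`d + 1` colours so that equally coloured points have distance less than the diameter. -/
def Cfg (d : ℕ) : Prop :=
  ∃ (ι : Type) (_ : Fintype ι) (f : ι → EuclideanSpace ℝ (Fin d)) (o : EuclideanSpace ℝ (Fin d))
    (r D : ℝ), 0 < D ∧ 2 * r ^ 2 ≤ D ^ 2 ∧ (∀ i, dist (f i) o ^ 2 = r ^ 2) ∧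
    (∀ i j, dist (f i) (f j) ≤ D) ∧
    ∀ col : ι → Fin (d + 1), ∃ i j, col i = col j ∧ dist (f i) (f j) = D

theorem Cfg.succ {d : ℕ} (h : Cfg d) : Cfg (d + 1) := by
  obtain ⟨ι, hι, f, o, r, D, hD, hr, ho, hle, hcol⟩ := h
  classical
  have hfr : Module.finrank ℝ (WithLp 2 (EuclideanSpace ℝ (Fin d) × ℝ)) = d + 1 := by
    have : Module.finrank ℝ (WithLp 2 (EuclideanSpace ℝ (Fin d) × ℝ)) =
        Module.finrank ℝ (EuclideanSpace ℝ (Fin d) × ℝ) :=
      (WithLp.linearEquiv 2 ℝ (EuclideanSpace ℝ (Fin d) × ℝ)).finrank_eq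
    rw [this, Module.finrank_prod, finrank_euclideanSpace_fin, Module.finrank_self]
  let φ := ((stdOrthonormalBasis ℝ (WithLp 2 (EuclideanSpace ℝ (Fin d) × ℝ))).reindex
    (finCongr hfr)).repr
  -- distances in the product
  have hdist : ∀ (x y : EuclideanSpace ℝ (Fin d)) (s t : ℝ),
      dist (φ (WithLp.toLp 2 (x, s))) (φ (WithLp.toLp 2 (y, t))) ^ 2 =
        dist x y ^ 2 + (s - t) ^ 2 := by
    intro x y s t
    rw [LinearIsometryEquiv.dist_map]
    rw [WithLp.prod_dist_eq_of_L2]
    rw [Real.sq_sqrt (by positivity)]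
    simp only [Real.dist_eq, sq_abs]
    rfl
  have hpos : 0 < D ^ 2 - r ^ 2 := by nlinarith [pow_pos hD 2]
  set hh : ℝ := Real.sqrt (D ^ 2 - r ^ 2) with hhdef
  have hhpos : 0 < hh := Real.sqrt_pos.2 hpos
  have hhsq : hh ^ 2 = D ^ 2 - r ^ 2 := Real.sq_sqrt hpos.le
  set t : ℝ := (hh ^ 2 - r ^ 2) / (2 * hh) with ht
  have ht2 : 2 * hh * t = hh ^ 2 - r ^ 2 := by
    rw [ht]; field_simp
  have hr' : 2 * (r ^ 2 + t ^ 2) ≤ D ^ 2 := by
    -- (2 hh t)^2 = (D^2 - 2 r^2)^2 and 4 hh^2 = 4 (D^2 - r^2)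
    have h1 : (2 * hh * t) ^ 2 = (D ^ 2 - 2 * r ^ 2) ^ 2 := by
      rw [ht2, hhsq]; ring
    have h2 : 4 * (D ^ 2 - r ^ 2) * t ^ 2 = (D ^ 2 - 2 * r ^ 2) ^ 2 := by
      rw [← h1, ← hhsq]; ring
    have h3 : 0 ≤ D ^ 2 - 2 * r ^ 2 := by linarith
    -- want 2 t^2 ≤ D^2 - 2 r^2
    by_contra hcon
    push Not at hcon
    have h4 : D ^ 2 - 2 * r ^ 2 < 2 * t ^ 2 := by linarith
    have h5 : 2 * (D ^ 2 - r ^ 2) * (D ^ 2 - 2 * r ^ 2) < 2 * (D ^ 2 - r ^ 2) * (2 * t ^ 2) :=
      mul_lt_mul_of_pos_left h4 (by linarith)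
    nlinarith [pow_pos hD 2, sq_nonneg r]
  set f' : Option ι → EuclideanSpace ℝ (Fin (d + 1)) := fun i =>
    match i with
    | none => φ (WithLp.toLp 2 (o, hh))
    | some i => φ (WithLp.toLp 2 (f i, 0)) with hf'
  have hds : ∀ i j, dist (f' (some i)) (f' (some j)) = dist (f i) (f j) := by
    intro i j
    have h1 := hdist (f i) (f j) 0 0
    have h2 : dist (f' (some i)) (f' (some j)) ^ 2 = dist (f i) (f j) ^ 2 := by
      simp only [hf']
      rw [h1]; ring
    exact (sq_eq_sq₀ dist_nonneg dist_nonneg).1 h2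
  have hda : ∀ i, dist (f' (some i)) (f' none) = D := by
    intro i
    have h1 := hdist (f i) o 0 hh
    have h2 : dist (f' (some i)) (f' none) ^ 2 = D ^ 2 := by
      simp only [hf']
      rw [h1, ho i, zero_sub, neg_sq, hhsq]
      ring
    exact (sq_eq_sq₀ dist_nonneg hD.le).1 h2
  refine ⟨Option ι, inferInstance, f', φ (WithLp.toLp 2 (o, t)), Real.sqrt (r ^ 2 + t ^ 2), D, hD,
    ?_, ?_, ?_, ?_⟩
  · rw [Real.sq_sqrt (by positivity)]; exact hr'
  · intro i
    rw [Real.sq_sqrt (by positivity)]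
    cases i with
    | none =>
      simp only [hf']
      rw [hdist, dist_self]
      have : (hh - t) ^ 2 = r ^ 2 + t ^ 2 := by
        have : (hh - t) ^ 2 = hh ^ 2 - 2 * hh * t + t ^ 2 := by ring
        rw [this, ht2]; ring
      rw [this]; ring
    | some i =>
      simp only [hf']
      rw [hdist, ho i]; ring
  · intro i j
    cases i with
    | none =>
      cases j with
      | none => rw [dist_self]; exact hD.le
      | some j => rw [dist_comm, hda]
    | some i =>
      cases j with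
      | none => rw [hda]
      | some j => rw [hds]; exact hle i j
  · intro col
    by_contra hno
    push Not at hno
    have h1 : ∀ i, col (some i) ≠ col none := by
      intro i hi
      exact hno (some i) none hi (hda i)
    have h2 : ∀ i, ∃ c : Fin (d + 1), (col none).succAbove c = col (some i) := fun i =>
      Fin.exists_succAbove_eq (h1 i)
    choose col' hcol' using h2
    obtain ⟨i, j, hij, hijD⟩ := hcol col'
    apply hno (some i) (some j)
    · rw [← hcol' i, ← hcol' j, hij]
    · rw [hds]; exact hijD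

theorem Cfg.mono {d e : ℕ} (h : Cfg d) (hde : d ≤ e) : Cfg e := by
  induction e, hde using Nat.le_induction with
  | base => exact h
  | succ n _ ih => exact ih.succ

/-- A configuration gives a finite set of positive diameter that cannot be cut. -/
theorem Cfg.not_cutsInto {d : ℕ} (h : Cfg d) :
    ∃ Y : Set (EuclideanSpace ℝ (Fin d)), Y.Finite ∧ 0 < Metric.diam Y ∧
      ¬ CutsInto Y (d + 1) := by
  obtain ⟨ι, hι, f, o, r, D, hD, hr, ho, hle, hcol⟩ := h
  have hfin : (Set.range f).Finite := Set.finite_range f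
  have hex : ∃ i j, dist (f i) (f j) = D := by
    obtain ⟨i, j, _, h⟩ := hcol fun _ => 0
    exact ⟨i, j, h⟩
  obtain ⟨i, j, hij⟩ := hex
  have hle' : Metric.diam (Set.range f) ≤ D := by
    apply Metric.diam_le_of_forall_dist_le hD.le
    rintro _ ⟨i, rfl⟩ _ ⟨j, rfl⟩
    exact hle i j
  have hge : D ≤ Metric.diam (Set.range f) := by
    rw [← hij]
    exact Metric.dist_le_diam_of_mem hfin.isBounded ⟨i, rfl⟩ ⟨j, rfl⟩
  refine ⟨Set.range f, hfin, by linarith, ?_⟩
  rintro ⟨X, hX, hdiam⟩
  have h1 : ∀ i, ∃ k, f i ∈ X k := by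
    intro i
    have : f i ∈ ⋃ k, X k := by
      rw [← hX]; exact ⟨i, rfl⟩
    exact Set.mem_iUnion.1 this
  choose col hc using h1
  obtain ⟨i, j, hij', hijD⟩ := hcol col
  have hsub : X (col i) ⊆ Set.range f := by
    rw [hX]; exact Set.subset_iUnion X (col i)
  have h2 : dist (f i) (f j) ≤ Metric.diam (X (col i)) := by
    apply Metric.dist_le_diam_of_mem (hfin.isBounded.subset hsub) (hc i)
    rw [hij']; exact hc j
  have h3 := hdiam (col i)
  linarith

section

variable {V : Type} [Fintype V] [DecidableEq V] {adj : V → V → Prop} [DecidableRel adj]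
  {c : V → Fin 4}

/-- dimension 64, from the 352 vertices of the classes 0 and 1 -/
theorem cfg64_of_graph
    (hsymm : ∀ v w, adj v w → adj w v)
    (hcard : Fintype.card V = 416)
    (h2 : ∀ v w, ((Finset.univ.filter fun u => adj v u ∧ adj u w).card : ℝ) =
      if v = w then 100 else if adj v w then 36 else 20)
    (hirr : ∀ v, ¬ adj v v)
    (hn : ∀ i, ((Finset.univ.filter fun u => c u = i).card : ℝ) = nn i)
    (hb : ∀ v i, ((Finset.univ.filter fun u => adj v u ∧ c u = i).card : ℝ) = bb (c v) i)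
    (hclq : ∀ s : Finset V, (∀ v ∈ s, c v = 0 ∨ c v = 1) →
      (∀ v ∈ s, ∀ w ∈ s, v ≠ w → adj v w) → s.card ≤ 5) :
    Cfg 64 := by
  classical
  obtain ⟨p1, p2, p3⟩ := mm_props corr_qq1 64 (by norm_num) hsymm hcard h2 hirr hn hb
  obtain ⟨f, hf⟩ := exists_gram (MM adj c qq1) p1 p2 64 p3
  have hM0 : ∀ v w, (c v = 0 ∨ c v = 1) → MM adj c qq1 v w =
      ((if v = w then 16 else 0) + (if adj v w then 4 else 0) - 1) / 96 := by
    intro v w hv
    simp only [MM, Matrix.smul_apply, Matrix.sub_apply, Matrix.add_apply, Matrix.one_apply, AA, JJ,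
      QQ, smul_eq_mul]
    have : qq1 (c v) (c w) = 0 := by
      generalize c w = j
      rcases hv with hv | hv
      · rw [hv]; fin_cases j <;> rfl
      · rw [hv]; fin_cases j <;> rfl
    rw [this]
    split_ifs <;> ring
  have hdist : ∀ x y : EuclideanSpace ℝ (Fin 64), dist x y ^ 2 =
      inner ℝ x x - 2 * inner ℝ x y + inner ℝ y y := by
    intro x y
    rw [dist_eq_norm, ← real_inner_self_eq_norm_sq, inner_sub_left, inner_sub_right,
      inner_sub_right, real_inner_comm x y]
    ring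
  have hDpos : 0 < Real.sqrt (1 / 3) := Real.sqrt_pos.2 (by norm_num)
  have hDsq : Real.sqrt (1 / 3) ^ 2 = 1 / 3 := Real.sq_sqrt (by norm_num)
  have hSS : ∀ v w, (c v = 0 ∨ c v = 1) → (c w = 0 ∨ c w = 1) → v ≠ w →
      dist (f v) (f w) ^ 2 = if adj v w then 1 / 4 else 1 / 3 := by
    intro v w hv hw hvw
    rw [hdist, hf, hf, hf, hM0 v v hv, hM0 w w hw, hM0 v w hv]
    simp only [hirr v, hirr w, if_true, if_false, if_neg hvw]
    split_ifs <;> norm_num
  refine ⟨{v : V // c v = 0 ∨ c v = 1}, inferInstance, fun v => f v, 0, Real.sqrt (15 / 96),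
    Real.sqrt (1 / 3), hDpos, ?_, ?_, ?_, ?_⟩
  · rw [hDsq, Real.sq_sqrt (by norm_num)]; norm_num
  · intro v
    rw [hdist, Real.sq_sqrt (by norm_num), inner_zero_right, inner_zero_left, hf, hM0 _ _ v.2]
    simp only [hirr, if_true, if_false]
    norm_num
  · intro v w
    by_cases hvw : v = w
    · rw [hvw, dist_self]; exact hDpos.le
    · have h := hSS v w v.2 w.2 (fun h => hvw (Subtype.ext h))
      have h' : dist (f v) (f w) ^ 2 ≤ Real.sqrt (1 / 3) ^ 2 := by
        rw [h, hDsq]; split_ifs <;> norm_num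
      exact (sq_le_sq₀ dist_nonneg hDpos.le).1 h'
  · intro col
    by_contra hno
    push Not at hno
    have hcl : ∀ k : Fin 65, (Finset.univ.filter fun v : V => ∃ h : c v = 0 ∨ c v = 1,
        col ⟨v, h⟩ = k).card ≤ 5 := by
      intro k
      apply hclq
      · intro v hv
        exact (Finset.mem_filter.1 hv).2.1
      · intro v hv w hw hvw
        obtain ⟨hv1, hv2⟩ := (Finset.mem_filter.1 hv).2
        obtain ⟨hw1, hw2⟩ := (Finset.mem_filter.1 hw).2
        by_contra hna
        apply hno ⟨v, hv1⟩ ⟨w, hw1⟩ (hv2.trans hw2.symm)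
        have h := hSS v w hv1 hw1 hvw
        rw [if_neg hna, ← hDsq] at h
        exact (sq_eq_sq₀ dist_nonneg hDpos.le).1 h
    have hcover : (Finset.univ.filter fun v => c v = 0) ∪ (Finset.univ.filter fun v => c v = 1) ⊆
        Finset.univ.biUnion fun k : Fin 65 => Finset.univ.filter fun v : V =>
          ∃ h : c v = 0 ∨ c v = 1, col ⟨v, h⟩ = k := by
      intro v hv
      rw [Finset.mem_union, Finset.mem_filter, Finset.mem_filter] at hv
      have hv' : c v = 0 ∨ c v = 1 := hv.imp (fun h => h.2) (fun h => h.2)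
      rw [Finset.mem_biUnion]
      exact ⟨col ⟨v, hv'⟩, Finset.mem_univ _, Finset.mem_filter.2
        ⟨Finset.mem_univ _, hv', rfl⟩⟩
    have hdisj : Disjoint (Finset.univ.filter fun v => c v = 0)
        (Finset.univ.filter fun v => c v = 1) := by
      rw [Finset.disjoint_filter]
      intro v _ h0 h1
      rw [h0] at h1
      exact absurd h1 (by decide)
    have e0 : (Finset.univ.filter fun v => c v = 0).card = 320 := by
      have := hn 0
      simp only [nn, Matrix.cons_val_zero] at this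
      exact_mod_cast this
    have e1 : (Finset.univ.filter fun v => c v = 1).card = 32 := by
      have := hn 1
      have h32 : nn 1 = 32 := rfl
      rw [h32] at this
      exact_mod_cast this
    have h1 := Finset.card_le_card hcover
    rw [Finset.card_union_of_disjoint hdisj, e0, e1] at h1
    have h3 := Finset.card_biUnion_le (s := Finset.univ)
      (t := fun k : Fin 65 => Finset.univ.filter fun v : V =>
          ∃ h : c v = 0 ∨ c v = 1, col ⟨v, h⟩ = k)
    have h4 : ∑ k : Fin 65, (Finset.univ.filter fun v : V =>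
          ∃ h : c v = 0 ∨ c v = 1, col ⟨v, h⟩ = k).card ≤ ∑ _k : Fin 65, 5 :=
      Finset.sum_le_sum fun k _ => hcl k
    rw [Finset.sum_const, Finset.card_univ, Fintype.card_fin, smul_eq_mul] at h4
    omega

end

end Vale.Agent.P052
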