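import Vale.Agent.P052.Geo
import Vale.Agent.P052.Data

/-!
# P052: kernel checks of the neighbour counts
-/

namespace Vale.Agent.P052

/-- row `n` of the adjacency matrix -/
def row (n : ℕ) : ℕ :=
  Nat.land (Nat.shiftRight G (Nat.mul 416 n)) (Nat.sub (Nat.shiftLeft 1 416) 1)

/-- bit test -/
def bt (m n : ℕ) : Bool := Nat.beq (Nat.land (Nat.shiftRight m n) 1) 1

theorem bt_eq (m n : ℕ) : bt m n = m.testBit n := by
  have h1 : Nat.land (Nat.shiftRight m n) 1 = (m >>> n) % 2 := Nat.and_one_is_mod (m >>> n)
  have h2 : m.testBit n = decide ((m >>> n) % 2 = 1) := by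
    rw [Nat.testBit, Nat.and_comm, Nat.and_one_is_mod]
    have : (m >>> n) % 2 < 2 := Nat.mod_lt _ (by norm_num)
    interval_cases (m >>> n) % 2 <;> rfl
  rw [bt, h1, h2, Bool.eq_iff_iff, Nat.beq_eq, decide_eq_true_iff]

/-- bit-sliced addition of a mask -/
def addM : List ℕ → ℕ → List ℕ
  | [], _ => []
  | p :: ps, m => Nat.xor p m :: addM ps (Nat.land p m)

/-- the value in column `w` -/
def val : List ℕ → ℕ → ℕ
  | [], _ => 0
  | p :: ps, w => (p.testBit w).toNat + 2 * val ps w

theorem length_addM (ps : List ℕ) (m : ℕ) : (addM ps m).length = ps.length := by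
  induction ps generalizing m with
  | nil => rfl
  | cons p ps ih => simp [addM, ih]

theorem val_lt (ps : List ℕ) (w : ℕ) : val ps w < 2 ^ ps.length := by
  induction ps with
  | nil => simp [val]
  | cons p ps ih =>
    simp only [val, List.length_cons, pow_succ]
    have : (p.testBit w).toNat ≤ 1 := Bool.toNat_le _
    omega

theorem val_addM (ps : List ℕ) (m w : ℕ) :
    val (addM ps m) w ≡ val ps w + (m.testBit w).toNat [MOD 2 ^ ps.length] := by
  induction ps generalizing m with
  | nil => simp [Nat.modEq_one]
  | cons p ps ih =>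
    simp only [addM, val, List.length_cons]
    have h1 : (Nat.xor p m).testBit w = (p.testBit w ^^ m.testBit w) := Nat.testBit_xor _ _ _
    have h2 : (Nat.land p m).testBit w = (p.testBit w && m.testBit w) := Nat.testBit_and _ _ _
    have h3 := ih (Nat.land p m)
    rw [h2] at h3
    rw [h1]
    have h4 : 2 * val (addM ps (Nat.land p m)) w ≡
        2 * (val ps w + (p.testBit w && m.testBit w).toNat) [MOD 2 ^ (ps.length + 1)] := by
      rw [pow_succ, mul_comm (2 ^ ps.length) 2]
      exact Nat.ModEq.mul_left' 2 h3
    have h5 := Nat.ModEq.add_left ((p.testBit w ^^ m.testBit w).toNat) h4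
    refine h5.trans ?_
    have : (p.testBit w ^^ m.testBit w).toNat +
        2 * (val ps w + (p.testBit w && m.testBit w).toNat) =
        (p.testBit w).toNat + 2 * val ps w + (m.testBit w).toNat := by
      cases p.testBit w <;> cases m.testBit w <;> simp <;> omega
    rw [this]

/-- nine zero planes -/
def zeros : List ℕ := [0, 0, 0, 0, 0, 0, 0, 0, 0]

/-- the sum of the rows `u < n` with bit `u` of `m` set -/
def acc (m : ℕ) : ℕ → List ℕ
  | 0 => zeros
  | n + 1 => cond (bt m n) (addM (acc m n) (row n)) (acc m n)

theorem length_acc (m n : ℕ) : (acc m n).length = 9 := by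
  induction n with
  | zero => rfl
  | succ n ih =>
    unfold acc
    cases bt m n
    · exact ih
    · rw [cond_true, length_addM, ih]

theorem val_acc (m n w : ℕ) :
    val (acc m n) w ≡ ((Finset.range n).filter fun u => m.testBit u = true ∧
      (row u).testBit w = true).card [MOD 512] := by
  induction n with
  | zero => simp [acc, zeros, val]; rfl
  | succ n ih =>
    unfold acc
    rw [Finset.range_add_one, Finset.filter_insert]
    have hnot : n ∉ (Finset.range n).filter fun u => m.testBit u = true ∧
      (row u).testBit w = true := by simp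
    by_cases h1 : m.testBit n = true
    · have hb : bt m n = true := by rw [bt_eq]; exact h1
      rw [hb, cond_true]
      have h2 := val_addM (acc m n) (row n) w
      rw [length_acc] at h2
      have h2' : val (addM (acc m n) (row n)) w ≡
        val (acc m n) w + ((row n).testBit w).toNat [MOD 512] := h2
      refine h2'.trans ?_
      by_cases h3 : (row n).testBit w = true
      · rw [if_pos ⟨h1, h3⟩, Finset.card_insert_of_notMem hnot, h3]
        exact Nat.ModEq.add_right 1 ih
      · rw [if_neg (fun h => h3 h.2)]
        rw [Bool.not_eq_true] at h3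
        rw [h3]
        exact ih
    · have hb : bt m n = false := by
        rw [bt_eq]; exact Bool.not_eq_true _ ▸ h1
      rw [hb, cond_false, if_neg (fun h => h1 h.1)]
      exact ih

/-- equality of lists of numbers -/
def eqL : List ℕ → List ℕ → Bool
  | [], [] => true
  | a :: as, b :: bs => cond (Nat.beq a b) (eqL as bs) false
  | _, _ => false

theorem eqL_eq {a b : List ℕ} (h : eqL a b = true) : a = b := by
  induction a generalizing b with
  | nil => cases b with
    | nil => rfl
    | cons b bs => simp [eqL] at h
  | cons a as ih => cases b with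
    | nil => simp [eqL] at h
    | cons b bs =>
      simp only [eqL] at h
      cases hab : Nat.beq a b
      · rw [hab, cond_false] at h
        exact absurd h Bool.false_ne_true
      · rw [hab, cond_true] at h
        rw [Nat.eq_of_beq_eq_true hab, ih h]

/-- all-ones mask -/
def ones : ℕ := Nat.sub (Nat.shiftLeft 1 416) 1

/-- expected planes of row `v` of the square of the adjacency matrix -/
def expected (v : ℕ) : List ℕ :=
  [0, 0, ones, 0, Nat.xor ones (Nat.lor (Nat.shiftLeft 1 v) (row v)),
    Nat.lor (Nat.shiftLeft 1 v) (row v), Nat.shiftLeft 1 v, 0, 0]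

/-- check the rows `u < n` of the square -/
def chkSq : ℕ → Bool
  | 0 => true
  | n + 1 => cond (eqL (acc (row n) 416) (expected n)) (chkSq n) false

/-- symmetry of the entries `(v, w)`, `w < n` -/
def chkSymRow (v : ℕ) : ℕ → Bool
  | 0 => true
  | n + 1 => cond (bt G (Nat.add (Nat.mul 416 v) n))
      (cond (bt G (Nat.add (Nat.mul 416 n) v)) (chkSymRow v n) false)
      (cond (bt G (Nat.add (Nat.mul 416 n) v)) false (chkSymRow v n))

def chkSym : ℕ → Bool
  | 0 => true
  | n + 1 => cond (chkSymRow n n) (cond (bt G (Nat.add (Nat.mul 416 n) n)) false (chkSym n)) false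

set_option maxRecDepth 100000 in
theorem chkSym_true : chkSym 416 = true := by decide +kernel

set_option maxRecDepth 100000 in
theorem chkSq_true : chkSq 416 = true := by decide +kernel

/-! ### Consequences -/

theorem chkSq_spec {n : ℕ} (h : chkSq n = true) {v : ℕ} (hv : v < n) :
    acc (row v) 416 = expected v := by
  induction n with
  | zero => omega
  | succ n ih =>
    unfold chkSq at h
    cases hc : eqL (acc (row n) 416) (expected n)
    · rw [hc, cond_false] at h
      exact absurd h Bool.false_ne_true
    · rw [hc, cond_true] at h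
      by_cases e : v = n
      · rw [e]; exact eqL_eq hc
      · exact ih h (by omega)

theorem chkSymRow_spec {v n : ℕ} (h : chkSymRow v n = true) {w : ℕ} (hw : w < n) :
    G.testBit (416 * v + w) = G.testBit (416 * w + v) := by
  induction n with
  | zero => omega
  | succ n ih =>
    unfold chkSymRow at h
    rw [bt_eq, bt_eq] at h
    have e1 : Nat.add (Nat.mul 416 v) n = 416 * v + n := rfl
    have e2 : Nat.add (Nat.mul 416 n) v = 416 * n + v := rfl
    rw [e1, e2] at h
    by_cases e : w = n
    · rw [e]
      cases h1 : G.testBit (416 * v + n) <;> cases h2 : G.testBit (416 * n + v)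
      · rfl
      · rw [h1, h2] at h; exact absurd h (by simp)
      · rw [h1, h2] at h; exact absurd h (by simp)
      · rfl
    · apply ih _ (by omega)
      cases h1 : G.testBit (416 * v + n) <;> cases h2 : G.testBit (416 * n + v)
      · rw [h1, h2] at h; exact h
      · rw [h1, h2] at h; exact absurd h (by simp)
      · rw [h1, h2] at h; exact absurd h (by simp)
      · rw [h1, h2] at h; exact h

theorem chkSym_spec {n : ℕ} (h : chkSym n = true) {v : ℕ} (hv : v < n) :
    G.testBit (416 * v + v) = false ∧
      ∀ w < v, G.testBit (416 * v + w) = G.testBit (416 * w + v) := by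
  induction n with
  | zero => omega
  | succ n ih =>
    unfold chkSym at h
    cases hc : chkSymRow n n
    · rw [hc, cond_false] at h
      exact absurd h Bool.false_ne_true
    · rw [hc, cond_true, bt_eq] at h
      have e1 : Nat.add (Nat.mul 416 n) n = 416 * n + n := rfl
      rw [e1] at h
      cases hd : G.testBit (416 * n + n)
      · rw [hd, cond_false] at h
        by_cases e : v = n
        · subst e
          exact ⟨hd, fun w hw => chkSymRow_spec hc hw⟩
        · exact ih h (by omega)
      · rw [hd, cond_true] at h
        exact absurd h Bool.false_ne_true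

theorem row_testBit (n : ℕ) {w : ℕ} (hw : w < 416) :
    (row n).testBit w = G.testBit (416 * n + w) := by
  have h1 : (row n).testBit w = ((G >>> (416 * n)).testBit w && (2 ^ 416 - 1).testBit w) :=
    Nat.testBit_and _ _ _
  rw [h1, Nat.testBit_shiftRight, Nat.testBit_two_pow_sub_one]
  simp [hw]

theorem row_testBit_ge (n : ℕ) {w : ℕ} (hw : 416 ≤ w) : (row n).testBit w = false := by
  have h1 : (row n).testBit w = ((G >>> (416 * n)).testBit w && (2 ^ 416 - 1).testBit w) :=
    Nat.testBit_and _ _ _
  rw [h1, Nat.testBit_two_pow_sub_one]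
  have : ¬ w < 416 := by omega
  simp [this]

/-- adjacency -/
def Adj (v w : Fin 416) : Prop := (row v).testBit w = true

instance : DecidableRel Adj := fun v w => inferInstanceAs (Decidable ((row v).testBit w = true))

theorem adj_irrefl (v : Fin 416) : ¬ Adj v v := by
  unfold Adj
  rw [row_testBit _ v.2, (chkSym_spec chkSym_true v.2).1]
  exact Bool.false_ne_true

theorem adj_symm (v w : Fin 416) (h : Adj v w) : Adj w v := by
  unfold Adj at *
  rw [row_testBit _ w.2] at h
  rw [row_testBit _ v.2]
  rcases lt_trichotomy (w : ℕ) v with h1 | h1 | h1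
  · rw [← (chkSym_spec chkSym_true v.2).2 w h1]; exact h
  · rw [h1] at h ⊢; exact h
  · rw [(chkSym_spec chkSym_true w.2).2 v h1]; exact h

theorem card_fin {n : ℕ} (P : ℕ → Prop) [DecidablePred P] :
    (Finset.univ.filter fun u : Fin n => P u).card = ((Finset.range n).filter P).card := by
  rw [← Finset.card_map Fin.valEmbedding]
  congr 1
  ext x
  simp only [Finset.mem_map, Finset.mem_filter, Finset.mem_univ, true_and, Fin.valEmbedding_apply,
    Finset.mem_range]
  constructor
  · rintro ⟨u, hu, rfl⟩
    exact ⟨u.2, hu⟩
  · rintro ⟨h1, h2⟩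
    exact ⟨⟨x, h1⟩, h2, rfl⟩

theorem card_of_val (m w x : ℕ) (hx : x < 512) (h : val (acc m 416) w = x) :
    ((Finset.range 416).filter fun u => m.testBit u = true ∧
      (row u).testBit w = true).card = x := by
  have h1 := val_acc m 416 w
  rw [h] at h1
  have h2 : ((Finset.range 416).filter fun u => m.testBit u = true ∧
      (row u).testBit w = true).card ≤ 416 := by
    refine (Finset.card_filter_le _ _).trans ?_
    rw [Finset.card_range]
  exact (Nat.ModEq.eq_of_lt_of_lt h1 hx (by omega)).symm

theorem two_count (v w : Fin 416) :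
    (Finset.univ.filter fun u => Adj v u ∧ Adj u w).card =
      if v = w then 100 else if Adj v w then 36 else 20 := by
  have h0 : (Finset.univ.filter fun u => Adj v u ∧ Adj u w).card =
      ((Finset.range 416).filter fun u => (row v).testBit u = true ∧
      (row u).testBit w = true).card :=
    card_fin (n := 416) (fun u => (row v).testBit u = true ∧ (row u).testBit w = true)
  rw [h0]
  apply card_of_val
  · split_ifs <;> norm_num
  rw [chkSq_spec chkSq_true v.2]
  have o1 : ones.testBit w = true := by
    have : ones.testBit w = (2 ^ 416 - 1).testBit w := rfl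
    rw [this, Nat.testBit_two_pow_sub_one]
    simp [w.2]
  have o2 : (Nat.shiftLeft 1 v).testBit w = decide (v = w) := by
    have : Nat.shiftLeft 1 v = 2 ^ (v : ℕ) := Nat.one_shiftLeft _
    rw [this, Nat.testBit_two_pow]
    exact decide_eq_decide.mpr ⟨fun h => Fin.ext h, fun h => congrArg _ h⟩
  have o3 : (Nat.lor (Nat.shiftLeft 1 v) (row v)).testBit w =
      (decide (v = w) || (row v).testBit w) := by
    have : (Nat.lor (Nat.shiftLeft 1 v) (row v)).testBit w =
      ((Nat.shiftLeft 1 v).testBit w || (row v).testBit w) := Nat.testBit_or _ _ _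
    rw [this, o2]
  have o4 : (Nat.xor ones (Nat.lor (Nat.shiftLeft 1 v) (row v))).testBit w =
      (true ^^ (decide (v = w) || (row v).testBit w)) := by
    have : (Nat.xor ones (Nat.lor (Nat.shiftLeft 1 v) (row v))).testBit w =
      (ones.testBit w ^^ (Nat.lor (Nat.shiftLeft 1 v) (row v)).testBit w) := Nat.testBit_xor _ _ _
    rw [this, o1, o3]
  simp only [expected, val, o1, o2, o3, o4, Nat.zero_testBit]
  by_cases e : v = w
  · subst e
    have : (row v).testBit v = false := Bool.eq_false_iff.2 (adj_irrefl v)
    rw [this]
    simp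
  · by_cases h : Adj v w
    · have h' : (row v).testBit w = true := h
      simp [e, h, h']
    · have h' : (row v).testBit w = false := Bool.eq_false_iff.2 h
      simp [e, h, h']

/-- the class of a vertex -/
def cls (v : Fin 416) : Fin 4 :=
  if (v : ℕ) < 320 then 0 else if (v : ℕ) < 352 then 1 else if (v : ℕ) < 384 then 2 else 3

/-- the mask of a class -/
def cmask : Fin 4 → ℕ :=
  ![2 ^ 320 - 1, (2 ^ 32 - 1) * 2 ^ 320, (2 ^ 32 - 1) * 2 ^ 352, (2 ^ 32 - 1) * 2 ^ 384]

/-- number of neighbours -/
def bbN : Fin 4 → Fin 4 → ℕ :=
  ![![76, 8, 8, 8], ![80, 20, 0, 0], ![80, 0, 20, 0], ![80, 0, 0, 20]]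

set_option maxRecDepth 100000 in
theorem cls_mask : ∀ (i : Fin 4) (u : Fin 416), ((cmask i).testBit u = true ↔ cls u = i) := by
  decide +kernel

set_option maxRecDepth 100000 in
theorem cls_count : ∀ (i : Fin 4) (w : Fin 416), val (acc (cmask i) 416) w = bbN (cls w) i := by
  decide +kernel

set_option maxRecDepth 100000 in
theorem cls_card : ∀ i : Fin 4, (Finset.univ.filter fun u => cls u = i).card =
    (![320, 32, 32, 32] : Fin 4 → ℕ) i := by
  decide +kernel

theorem bbN_lt : ∀ i j : Fin 4, bbN i j < 512 := by decide

theorem nbr_count (v : Fin 416) (i : Fin 4) :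
    (Finset.univ.filter fun u => Adj v u ∧ cls u = i).card = bbN (cls v) i := by
  have h0 : (Finset.univ.filter fun u => Adj v u ∧ cls u = i).card =
      ((Finset.range 416).filter fun u => (cmask i).testBit u = true ∧
      (row u).testBit v = true).card := by
    rw [← card_fin (n := 416) (fun u => (cmask i).testBit u = true ∧ (row u).testBit v = true)]
    congr 1
    apply Finset.filter_congr
    intro u _
    rw [cls_mask i u]
    constructor
    · rintro ⟨h1, h2⟩
      exact ⟨h2, adj_symm _ _ h1⟩
    · rintro ⟨h1, h2⟩
      exact ⟨adj_symm _ _ h2, h1⟩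
  rw [h0]
  apply card_of_val _ _ _ _ (cls_count i v)
  exact bbN_lt _ _

theorem hn_real (i : Fin 4) : ((Finset.univ.filter fun u => cls u = i).card : ℝ) = nn i := by
  rw [cls_card]
  fin_cases i <;> simp [nn]

theorem hb_real (v : Fin 416) (i : Fin 4) :
    ((Finset.univ.filter fun u => Adj v u ∧ cls u = i).card : ℝ) = bb (cls v) i := by
  rw [nbr_count]
  generalize cls v = j
  fin_cases j <;> fin_cases i <;> simp [bb, bbN]

theorem h2_real (v w : Fin 416) :
    ((Finset.univ.filter fun u => Adj v u ∧ Adj u w).card : ℝ) =
      if v = w then 100 else if Adj v w then 36 else 20 := by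
  rw [two_count]
  split_ifs <;> norm_num

end Vale.Agent.P052
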