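import Vale.Agent.P052.Geo

/-!
# P052: from the graph to the counterexample
-/

namespace Vale.Agent.P052

open Matrix

/-- `Y` is a union of `k` subsets, each of diameter strictly smaller than `diam Y`. -/
def CutsInto {d : ℕ} (Y : Set (EuclideanSpace ℝ (Fin d))) (k : ℕ) : Prop :=
  ∃ X : Fin k → Set (EuclideanSpace ℝ (Fin d)),
    Y = ⋃ i, X i ∧ ∀ i, Metric.diam (X i) < Metric.diam Y

/-- Points indexed by `I`, with all distances at most `D`; index pairs at distance `< D` are
adjacent; cliques have at most `m` elements.  Then the set needs at least `|I| / m` pieces. -/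
theorem not_cutsInto {V : Type} [DecidableEq V] {d : ℕ} (I : Finset V)
    (g : V → EuclideanSpace ℝ (Fin d)) (adj : V → V → Prop) (D : ℝ) (m : ℕ)
    (hD : ∀ v ∈ I, ∀ w ∈ I, v ≠ w → ¬ adj v w → dist (g v) (g w) = D)
    (hle : ∀ v ∈ I, ∀ w ∈ I, dist (g v) (g w) ≤ D)
    (hclq : ∀ s : Finset V, s ⊆ I → (∀ v ∈ s, ∀ w ∈ s, v ≠ w → adj v w) → s.card ≤ m)
    (k : ℕ) (hk : m * k < I.card) :
    ¬ CutsInto (g '' (I : Set V)) k := by
  classical
  rintro ⟨X, hX, hdiam⟩
  have hD0 : 0 ≤ D := by
    have : 0 < I.card := by omega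
    obtain ⟨v, hv⟩ := Finset.card_pos.1 this
    have := hle v hv v hv
    rwa [dist_self] at this
  have hYle : Metric.diam (g '' (I : Set V)) ≤ D := by
    apply Metric.diam_le_of_forall_dist_le hD0
    rintro _ ⟨v, hv, rfl⟩ _ ⟨w, hw, rfl⟩
    exact hle v hv w hw
  have hbdd : Bornology.IsBounded (g '' (I : Set V)) :=
    (I.finite_toSet.image g).isBounded
  have hcard : ∀ i : Fin k, (I.filter fun v => g v ∈ X i).card ≤ m := by
    intro i
    apply hclq _ (Finset.filter_subset _ _)
    intro v hv w hw hvw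
    by_contra hna
    rw [Finset.mem_filter] at hv hw
    have h1 := hD v hv.1 w hw.1 hvw hna
    have hsub : X i ⊆ g '' (I : Set V) := by
      rw [hX]; exact Set.subset_iUnion X i
    have h2 : dist (g v) (g w) ≤ Metric.diam (X i) :=
      Metric.dist_le_diam_of_mem (hbdd.subset hsub) hv.2 hw.2
    have h3 := hdiam i
    linarith
  have hcover : I ⊆ Finset.univ.biUnion fun i : Fin k => I.filter fun v => g v ∈ X i := by
    intro v hv
    have : g v ∈ ⋃ i, X i := by
      rw [← hX]; exact ⟨v, hv, rfl⟩
    obtain ⟨i, hi⟩ := Set.mem_iUnion.1 this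
    rw [Finset.mem_biUnion]
    exact ⟨i, Finset.mem_univ _, Finset.mem_filter.2 ⟨hv, hi⟩⟩
  have h1 := Finset.card_le_card hcover
  have h2 : (Finset.univ.biUnion fun i : Fin k => I.filter fun v => g v ∈ X i).card
      ≤ ∑ i : Fin k, (I.filter fun v => g v ∈ X i).card := Finset.card_biUnion_le
  have h3 : ∑ i : Fin k, (I.filter fun v => g v ∈ X i).card ≤ ∑ i : Fin k, m :=
    Finset.sum_le_sum fun i _ => hcard i
  rw [Finset.sum_const, Finset.card_univ, Fintype.card_fin, smul_eq_mul] at h3
  have : k * m = m * k := mul_comm _ _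
  omega

/-- the scaling factor -/
noncomputable def lam : ℝ := (Real.sqrt 222 - 1) / 13

theorem lam_eq : 13 * lam ^ 2 + 2 * lam = 17 := by
  have h : Real.sqrt 222 ^ 2 = 222 := Real.sq_sqrt (by norm_num)
  unfold lam
  nlinarith [h]

theorem lam_pos : 0 < lam := by
  have h : (1 : ℝ) < Real.sqrt 222 := by
    rw [Real.lt_sqrt (by norm_num)]; norm_num
  unfold lam
  linarith

section

variable {V : Type} [Fintype V] [DecidableEq V] {adj : V → V → Prop} [DecidableRel adj]
  {c : V → Fin 4}

theorem borsuk_of_graph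
    (hsymm : ∀ v w, adj v w → adj w v)
    (hcard : Fintype.card V = 416)
    (h2 : ∀ v w, ((Finset.univ.filter fun u => adj v u ∧ adj u w).card : ℝ) =
      if v = w then 100 else if adj v w then 36 else 20)
    (hirr : ∀ v, ¬ adj v v)
    (hn : ∀ i, ((Finset.univ.filter fun u => c u = i).card : ℝ) = nn i)
    (hb : ∀ v i, ((Finset.univ.filter fun u => adj v u ∧ c u = i).card : ℝ) = bb (c v) i)
    (a : V) (ha : c a ≠ 0)
    (hclq : ∀ s : Finset V, (∀ v ∈ s, c v = 0 ∨ v = a) →
      (∀ v ∈ s, ∀ w ∈ s, v ≠ w → adj v w) → s.card ≤ 5) :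
    ∃ Y : Set (EuclideanSpace ℝ (Fin 63)), Y.Finite ∧ 0 < Metric.diam Y ∧
      ∀ k ≤ 64, ¬ CutsInto Y k := by
  classical
  obtain ⟨p1, p2, p3⟩ := mm_props corr_qq 63 (by norm_num) hsymm hcard h2 hirr hn hb
  obtain ⟨f, hf⟩ := exists_gram (MM adj c qq) p1 p2 63 p3
  set I : Finset V := insert a (Finset.univ.filter fun v => c v = 0) with hI
  have hIcard : I.card = 321 := by
    rw [hI, Finset.card_insert_of_notMem]
    · have := hn 0
      simp only [nn, Matrix.cons_val_zero] at this
      have h : (Finset.univ.filter fun v => c v = 0).card = 320 := by exact_mod_cast this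
      rw [h]
    · simp [ha]
  set g : V → EuclideanSpace ℝ (Fin 63) := fun v => if v = a then lam • f v else f v with hg
  -- inner products
  have hM0 : ∀ v w, c v = 0 → MM adj c qq v w =
      ((if v = w then 16 else 0) + (if adj v w then 4 else 0) - 1) / 96 := by
    intro v w hv
    simp only [MM, Matrix.smul_apply, Matrix.sub_apply, Matrix.add_apply, Matrix.one_apply, AA, JJ,
      QQ, hv, smul_eq_mul]
    have : qq 0 (c w) = 0 := by
      generalize c w = j
      fin_cases j <;> rfl
    rw [this]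
    split_ifs <;> ring
  have hMaa : MM adj c qq a a = 13 / 96 := by
    simp only [MM, Matrix.smul_apply, Matrix.sub_apply, Matrix.add_apply, Matrix.one_apply, AA, JJ,
      QQ, smul_eq_mul, hirr a, if_false, if_true]
    have : qq (c a) (c a) = 2 := by
      generalize c a = j at ha
      fin_cases j
      · exact absurd rfl ha
      · rfl
      · rfl
      · rfl
    rw [this]
    norm_num
  have hdist : ∀ x y : EuclideanSpace ℝ (Fin 63), dist x y ^ 2 =
      inner ℝ x x - 2 * inner ℝ x y + inner ℝ y y := by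
    intro x y
    rw [dist_eq_norm, ← real_inner_self_eq_norm_sq, inner_sub_left, inner_sub_right,
      inner_sub_right, real_inner_comm x y]
    ring
  set D : ℝ := Real.sqrt (1 / 3) with hDdef
  have hDpos : 0 < D := Real.sqrt_pos.2 (by norm_num)
  have hDsq : D ^ 2 = 1 / 3 := Real.sq_sqrt (by norm_num)
  -- main computation
  have hSS : ∀ v w, c v = 0 → c w = 0 → v ≠ w →
      dist (g v) (g w) ^ 2 = if adj v w then 1 / 4 else 1 / 3 := by
    intro v w hv hw hvw
    have hva : v ≠ a := fun h => ha (h ▸ hv)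
    have hwa : w ≠ a := fun h => ha (h ▸ hw)
    rw [hdist]
    simp only [hg, if_neg hva, if_neg hwa, hf]
    rw [hM0 v v hv, hM0 w w hw, hM0 v w hv]
    simp only [hirr v, hirr w, if_true, if_false, if_neg hvw]
    split_ifs <;> norm_num
  have hSa : ∀ v, c v = 0 →
      dist (g v) (g a) ^ 2 = if adj v a then 1 / 3 - lam / 12 else 1 / 3 := by
    intro v hv
    have hva : v ≠ a := fun h => ha (h ▸ hv)
    rw [hdist]
    simp only [hg, if_neg hva, if_true, inner_smul_left, inner_smul_right, hf,
      conj_trivial]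
    rw [hM0 v v hv, hMaa, hM0 v a hv]
    simp only [hirr v, if_true, if_false, if_neg hva]
    have := lam_eq
    split_ifs <;> linarith
  have hsq : ∀ v ∈ I, ∀ w ∈ I, v ≠ w → (adj v w → dist (g v) (g w) ^ 2 < D ^ 2) ∧
      (¬ adj v w → dist (g v) (g w) ^ 2 = D ^ 2) := by
    intro v hv w hw hvw
    rw [hDsq]
    rw [hI, Finset.mem_insert, Finset.mem_filter] at hv hw
    have hlp := lam_pos
    rcases hv with hv | hv
    · subst hv
      rcases hw with hw | hw
      · exact absurd hw.symm hvw
      · have h := hSa w hw.2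
        rw [dist_comm]
        refine ⟨fun hadj => ?_, fun hadj => ?_⟩
        · rw [if_pos (hsymm _ _ hadj)] at h
          rw [h]; linarith
        · rw [if_neg (fun h' => hadj (hsymm _ _ h'))] at h
          exact h
    · rcases hw with hw | hw
      · subst hw
        have h := hSa v hv.2
        refine ⟨fun hadj => ?_, fun hadj => ?_⟩
        · rw [if_pos hadj] at h
          rw [h]; linarith
        · rw [if_neg hadj] at h
          exact h
      · have h := hSS v w hv.2 hw.2 hvw
        refine ⟨fun hadj => ?_, fun hadj => ?_⟩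
        · rw [if_pos hadj] at h
          rw [h]; norm_num
        · rw [if_neg hadj] at h
          exact h
  have hD : ∀ v ∈ I, ∀ w ∈ I, v ≠ w → ¬ adj v w → dist (g v) (g w) = D := by
    intro v hv w hw hvw hadj
    have h := (hsq v hv w hw hvw).2 hadj
    exact (sq_eq_sq₀ dist_nonneg hDpos.le).1 h
  have hle : ∀ v ∈ I, ∀ w ∈ I, dist (g v) (g w) ≤ D := by
    intro v hv w hw
    by_cases hvw : v = w
    · rw [hvw, dist_self]; exact hDpos.le
    · by_cases hadj : adj v w
      · have h := (hsq v hv w hw hvw).1 hadj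
        exact (lt_of_pow_lt_pow_left₀ 2 hDpos.le h).le
      · exact (hD v hv w hw hvw hadj).le
  have hclq' : ∀ s : Finset V, s ⊆ I → (∀ v ∈ s, ∀ w ∈ s, v ≠ w → adj v w) → s.card ≤ 5 := by
    intro s hs hadj
    apply hclq s _ hadj
    intro v hv
    have := hs hv
    rw [hI, Finset.mem_insert, Finset.mem_filter] at this
    rcases this with h | h
    · exact Or.inr h
    · exact Or.inl h.2
  have hfin : (g '' (I : Set V)).Finite := I.finite_toSet.image g
  refine ⟨g '' (I : Set V), hfin, ?_, ?_⟩
  · -- positive diameter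
    have hex : ∃ v ∈ I, ∃ w ∈ I, v ≠ w ∧ ¬ adj v w := by
      by_contra hno
      push Not at hno
      have := hclq' I (Finset.Subset.refl _) hno
      omega
    obtain ⟨v, hv, w, hw, hvw, hadj⟩ := hex
    have h1 := hD v hv w hw hvw hadj
    have h2 : dist (g v) (g w) ≤ Metric.diam (g '' (I : Set V)) :=
      Metric.dist_le_diam_of_mem hfin.isBounded ⟨v, hv, rfl⟩ ⟨w, hw, rfl⟩
    linarith
  · intro k hk
    apply not_cutsInto I g adj D 5 hD hle hclq' k
    omega

end

end Vale.Agent.P052
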