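import Vale.Agent.P052.Gram

/-!
# P052: the projection matrix of the reduced configuration
-/

namespace Vale.Agent.P052

open Matrix

/-- numbers of vertices in the four classes -/
def nn : Fin 4 → ℝ := ![320, 32, 32, 32]

/-- numbers of neighbours: `bb i j` is the number of neighbours in class `j` of a vertex of
class `i` -/
def bb : Fin 4 → Fin 4 → ℝ :=
  ![![76, 8, 8, 8], ![80, 20, 0, 0], ![80, 0, 20, 0], ![80, 0, 0, 20]]

/-- the correction term in codimension 2 -/
def qq : Fin 4 → Fin 4 → ℝ :=
  ![![0, 0, 0, 0], ![0, 2, -1, -1], ![0, -1, 2, -1], ![0, -1, -1, 2]]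

/-- the correction term in codimension 1 -/
noncomputable def qq1 : Fin 4 → Fin 4 → ℝ :=
  ![![0, 0, 0, 0], ![0, 0, 0, 0], ![0, 0, 3 / 2, -3 / 2], ![0, 0, -3 / 2, 3 / 2]]

/-- the conditions on a correction term of rank `t` -/
structure Corr (q : Fin 4 → Fin 4 → ℝ) (t : ℝ) : Prop where
  symm : ∀ i j, q i j = q j i
  jq : ∀ j, ∑ i, nn i * q i j = 0
  aq : ∀ k j, ∑ i, bb k i * q i j = 20 * q k j
  sq : ∀ k j, ∑ i, nn i * (q k i * q i j) = 96 * q k j
  tr : ∑ i, nn i * q i i = 96 * t

theorem corr_qq : Corr qq 2 where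
  symm := by
    intro i j
    fin_cases i <;> fin_cases j <;> rfl
  jq := by
    intro j
    rw [Fin.sum_univ_four]
    fin_cases j <;> simp [nn, qq] <;> norm_num
  aq := by
    intro i j
    rw [Fin.sum_univ_four]
    fin_cases j <;> fin_cases i <;> simp [bb, qq] <;> norm_num
  sq := by
    intro i j
    rw [Fin.sum_univ_four]
    fin_cases j <;> fin_cases i <;> simp [nn, qq] <;> norm_num
  tr := by
    rw [Fin.sum_univ_four]
    simp [nn, qq]
    norm_num

theorem corr_qq1 : Corr qq1 1 where
  symm := by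
    intro i j
    fin_cases i <;> fin_cases j <;> rfl
  jq := by
    intro j
    rw [Fin.sum_univ_four]
    fin_cases j <;> simp [nn, qq1] <;> norm_num
  aq := by
    intro i j
    rw [Fin.sum_univ_four]
    fin_cases j <;> fin_cases i <;> simp [bb, qq1] <;> norm_num
  sq := by
    intro i j
    rw [Fin.sum_univ_four]
    fin_cases j <;> fin_cases i <;> simp [nn, qq1] <;> norm_num
  tr := by
    rw [Fin.sum_univ_four]
    simp [nn, qq1]
    norm_num

section

variable {V : Type} [Fintype V] [DecidableEq V] (adj : V → V → Prop) [DecidableRel adj]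
  (c : V → Fin 4)

/-- adjacency matrix -/
def AA : Matrix V V ℝ := fun v w => if adj v w then 1 else 0

/-- all-ones matrix -/
def JJ : Matrix V V ℝ := fun _ _ => 1

/-- correction -/
def QQ (q : Fin 4 → Fin 4 → ℝ) : Matrix V V ℝ := fun v w => q (c v) (c w)

/-- the projection -/
noncomputable def MM (q : Fin 4 → Fin 4 → ℝ) : Matrix V V ℝ :=
  (1 / 96 : ℝ) • ((16 : ℝ) • (1 : Matrix V V ℝ) + (4 : ℝ) • AA adj - JJ - QQ c q)

variable {adj c}

theorem sum_class (hn : ∀ i, ((Finset.univ.filter fun u => c u = i).card : ℝ) = nn i)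
    (g : Fin 4 → ℝ) : ∑ u, g (c u) = ∑ i, nn i * g i := by
  rw [← Finset.sum_fiberwise (s := Finset.univ) (g := c)]
  apply Finset.sum_congr rfl
  intro i _
  rw [Finset.sum_congr rfl (g := fun _ => g i)]
  · rw [Finset.sum_const, nsmul_eq_mul, hn]
  · intro u hu
    rw [(Finset.mem_filter.1 hu).2]

theorem sum_nbr_class
    (hb : ∀ v i, ((Finset.univ.filter fun u => adj v u ∧ c u = i).card : ℝ) = bb (c v) i)
    (g : Fin 4 → ℝ) (v : V) :
    ∑ u, (if adj v u then (1 : ℝ) else 0) * g (c u) = ∑ i, bb (c v) i * g i := by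
  rw [← Finset.sum_fiberwise (s := Finset.univ) (g := c)]
  apply Finset.sum_congr rfl
  intro i _
  rw [← hb v i, Finset.card_filter, Finset.sum_filter, Nat.cast_sum, Finset.sum_mul]
  apply Finset.sum_congr rfl
  intro u _
  by_cases h1 : c u = i
  · by_cases h2 : adj v u
    · simp [h1, h2]
    · simp [h1, h2]
  · simp [h1]

theorem mm_props {q : Fin 4 → Fin 4 → ℝ} {t : ℝ} (hq : Corr q t) (n : ℕ) (hnt : (n : ℝ) = 65 - t)
    (hsymm : ∀ v w, adj v w → adj w v)
    (hcard : Fintype.card V = 416)
    (h2 : ∀ v w, ((Finset.univ.filter fun u => adj v u ∧ adj u w).card : ℝ) =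
      if v = w then 100 else if adj v w then 36 else 20)
    (hirr : ∀ v, ¬ adj v v)
    (hn : ∀ i, ((Finset.univ.filter fun u => c u = i).card : ℝ) = nn i)
    (hb : ∀ v i, ((Finset.univ.filter fun u => adj v u ∧ c u = i).card : ℝ) = bb (c v) i) :
    (MM adj c q)ᵀ = MM adj c q ∧ MM adj c q * MM adj c q = MM adj c q ∧
      (MM adj c q).trace = n := by
  have hAs : (AA adj)ᵀ = AA adj := by
    ext v w
    simp only [Matrix.transpose_apply, AA]
    have : adj v w ↔ adj w v := ⟨hsymm v w, hsymm w v⟩
    simp only [this]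
  have hQs : (QQ c q)ᵀ = QQ c q := by
    ext v w
    simp only [Matrix.transpose_apply, QQ]
    exact hq.symm _ _
  have hJs : (JJ : Matrix V V ℝ)ᵀ = JJ := rfl
  have hAA : AA adj * AA adj = (80 : ℝ) • (1 : Matrix V V ℝ) + (16 : ℝ) • AA adj +
      (20 : ℝ) • JJ := by
    ext v w
    rw [Matrix.mul_apply]
    have e1 : ∑ u, AA adj v u * AA adj u w =
        ((Finset.univ.filter fun u => adj v u ∧ adj u w).card : ℝ) := by
      rw [Finset.card_filter, Nat.cast_sum]
      apply Finset.sum_congr rfl
      intro u _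
      simp only [AA]
      by_cases a1 : adj v u <;> by_cases a2 : adj u w <;> simp [a1, a2]
    rw [e1, h2]
    simp only [Matrix.add_apply, Matrix.smul_apply, Matrix.one_apply, AA, JJ, smul_eq_mul]
    by_cases e : v = w
    · subst e
      simp only [if_true, hirr v, if_false]
      norm_num
    · by_cases a1 : adj v w
      · simp only [e, a1, if_false, if_true]
        norm_num
      · simp only [e, a1, if_false]
        norm_num
  have hdeg : ∀ v, ∑ u, AA adj v u = 100 := by
    intro v
    have := h2 v v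
    rw [if_pos rfl] at this
    rw [← this, Finset.card_filter, Nat.cast_sum]
    apply Finset.sum_congr rfl
    intro u _
    simp only [AA]
    by_cases a1 : adj v u
    · simp [a1, hsymm v u a1]
    · simp [a1]
  have hAJ : AA adj * JJ = (100 : ℝ) • JJ := by
    ext v w
    rw [Matrix.mul_apply]
    simp only [JJ, mul_one, Matrix.smul_apply, smul_eq_mul]
    exact hdeg v
  have hJA : JJ * AA adj = (100 : ℝ) • JJ := by
    have := congrArg Matrix.transpose hAJ
    rw [Matrix.transpose_mul, Matrix.transpose_smul, hAs, hJs] at this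
    exact this
  have hJJ : (JJ : Matrix V V ℝ) * JJ = (416 : ℝ) • JJ := by
    ext v w
    rw [Matrix.mul_apply]
    simp only [JJ, mul_one, Matrix.smul_apply, smul_eq_mul, Finset.sum_const, Finset.card_univ,
      hcard, nsmul_eq_mul]
    norm_num
  have hJQ : JJ * QQ c q = 0 := by
    ext v w
    rw [Matrix.mul_apply]
    simp only [JJ, QQ, one_mul, Matrix.zero_apply]
    rw [sum_class hn (fun i => q i (c w))]
    exact hq.jq _
  have hQJ : QQ c q * JJ = 0 := by
    have := congrArg Matrix.transpose hJQ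
    rw [Matrix.transpose_mul, hQs, hJs, Matrix.transpose_zero] at this
    exact this
  have hAQ : AA adj * QQ c q = (20 : ℝ) • QQ c q := by
    ext v w
    rw [Matrix.mul_apply]
    simp only [AA, QQ, Matrix.smul_apply, smul_eq_mul]
    rw [sum_nbr_class hb (fun i => q i (c w)) v]
    exact hq.aq _ _
  have hQA : QQ c q * AA adj = (20 : ℝ) • QQ c q := by
    have := congrArg Matrix.transpose hAQ
    rw [Matrix.transpose_mul, Matrix.transpose_smul, hAs, hQs] at this
    exact this
  have hQQ : QQ c q * QQ c q = (96 : ℝ) • QQ c q := by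
    ext v w
    rw [Matrix.mul_apply]
    simp only [QQ, Matrix.smul_apply, smul_eq_mul]
    rw [sum_class hn (fun i => q (c v) i * q i (c w))]
    exact hq.sq _ _
  refine ⟨?_, ?_, ?_⟩
  · simp only [MM, Matrix.transpose_smul, Matrix.transpose_sub, Matrix.transpose_add,
      Matrix.transpose_one, hAs, hQs, hJs]
  · simp only [MM, Matrix.smul_mul, Matrix.mul_smul, Matrix.sub_mul, Matrix.mul_sub,
      Matrix.add_mul, Matrix.mul_add, Matrix.one_mul, Matrix.mul_one, hAA, hAJ, hJA, hJJ, hJQ,
      hQJ, hAQ, hQA, hQQ]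
    module
  · simp only [MM, Matrix.trace_smul, Matrix.trace_sub, Matrix.trace_add, Matrix.trace_one]
    have t1 : (AA adj).trace = 0 := by
      simp [Matrix.trace, AA, hirr]
    have t2 : (JJ : Matrix V V ℝ).trace = 416 := by
      simp [Matrix.trace, JJ, hcard]
    have t3 : (QQ c q).trace = 96 * t := by
      simp only [Matrix.trace, Matrix.diag_apply, QQ]
      rw [sum_class hn (fun i => q i i)]
      exact hq.tr
    rw [t1, t2, t3, hcard, hnt]
    norm_num
    ring

end

end Vale.Agent.P052
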