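import Mathlib

/-!
# P052: vectors from a symmetric idempotent matrix
-/

namespace Vale.Agent.P052

open Matrix LinearMap

/-- A real symmetric idempotent matrix of trace `n` is the Gram matrix of vectors of
`EuclideanSpace ℝ (Fin n)`. -/
theorem exists_gram {V : Type} [Fintype V] [DecidableEq V] (M : Matrix V V ℝ)
    (hs : Mᵀ = M) (hi : M * M = M) (n : ℕ) (ht : M.trace = n) :
    ∃ f : V → EuclideanSpace ℝ (Fin n), ∀ v w, inner ℝ (f v) (f w) = M v w := by
  classical
  set T : EuclideanSpace ℝ V →ₗ[ℝ] EuclideanSpace ℝ V := Matrix.toLpLin 2 2 M with hT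
  have hTT : IsIdempotentElem T := by
    change T * T = T
    apply LinearMap.ext
    intro x
    rw [Module.End.mul_apply]
    simp only [hT, Matrix.toLpLin_apply]
    rw [Matrix.mulVec_mulVec, hi]
  have hproj := hTT.isProj_range
  have htr : LinearMap.trace ℝ _ T = (n : ℝ) := by
    rw [← ht, hT, Matrix.toLpLin_eq_toLin]
    rw [LinearMap.trace_eq_matrix_trace ℝ (PiLp.basisFun 2 ℝ V), LinearMap.toMatrix_toLin]
  have hfr : Module.finrank ℝ (LinearMap.range T) = n := by
    have := hproj.trace
    rw [htr] at this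
    exact_mod_cast this.symm
  let b := (stdOrthonormalBasis ℝ (LinearMap.range T)).reindex (finCongr hfr)
  refine ⟨fun v => b.repr ⟨T (EuclideanSpace.single v 1), LinearMap.mem_range_self _ _⟩, ?_⟩
  intro v w
  rw [LinearIsometryEquiv.inner_map_map]
  rw [Submodule.coe_inner]
  simp only [hT, Matrix.toLpLin_apply]
  have h1 : ∀ v : V, M *ᵥ (WithLp.ofLp (EuclideanSpace.single v (1 : ℝ))) = fun i => M i v := by
    intro v
    funext i
    simp [Matrix.mulVec, dotProduct, Pi.single_apply]
  rw [h1, h1]
  rw [PiLp.inner_apply]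
  simp only [RCLike.inner_apply, conj_trivial]
  have h2 : (M * M) v w = M v w := by rw [hi]
  rw [Matrix.mul_apply] at h2
  rw [← h2]
  apply Finset.sum_congr rfl
  intro i _
  have h3 : M i v = M v i := by
    conv_lhs => rw [← hs]
    rfl
  rw [h3]; ring

end Vale.Agent.P052
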