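import Vale.Agent.P052.Clique

/-!
# P052: there is no 6-clique among the vertices `0, …, 351` (kernel evaluation)
-/

namespace Vale.Agent.P052

theorem top0 : top 0 173 = true := by decide +kernel

theorem top1 : top 173 33 = true := by decide +kernel

theorem top2 : top 206 19 = true := by decide +kernel

theorem top3 : top 225 20 = true := by decide +kernel

theorem top4 : top 245 14 = true := by decide +kernel

theorem top5 : top 259 7 = true := by decide +kernel

theorem top6 : top 266 6 = true := by decide +kernel

theorem top7 : top 272 7 = true := by decide +kernel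

theorem top8 : top 279 6 = true := by decide +kernel

theorem top9 : top 285 6 = true := by decide +kernel

theorem top10 : top 291 7 = true := by decide +kernel

theorem top11 : top 298 6 = true := by decide +kernel

theorem top12 : top 304 7 = true := by decide +kernel

theorem top13 : top 311 6 = true := by decide +kernel

theorem top14 : top 317 5 = true := by decide +kernel

theorem top15 : top 322 4 = true := by decide +kernel

theorem top16 : top 326 3 = true := by decide +kernel

theorem top17 : top 329 3 = true := by decide +kernel

theorem top18 : top 332 3 = true := by decide +kernel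

theorem top19 : top 335 3 = true := by decide +kernel

theorem top20 : top 338 3 = true := by decide +kernel

theorem top21 : top 341 3 = true := by decide +kernel

theorem top22 : top 344 3 = true := by decide +kernel

theorem top23 : top 347 2 = true := by decide +kernel

theorem top24 : top 349 2 = true := by decide +kernel

theorem top25 : top 351 1 = true := by decide +kernel

theorem top_all (i : ℕ) (hi : i < 352) : NoClq 5 ((2 ^ i - 1) &&& rowOf i) := by
  rcases Nat.lt_or_ge i 173 with h0 | h0
  · exact top_sound _ _ top0 i (by omega) (by omega)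
  rcases Nat.lt_or_ge i 206 with h1 | h1
  · exact top_sound _ _ top1 i (by omega) (by omega)
  rcases Nat.lt_or_ge i 225 with h2 | h2
  · exact top_sound _ _ top2 i (by omega) (by omega)
  rcases Nat.lt_or_ge i 245 with h3 | h3
  · exact top_sound _ _ top3 i (by omega) (by omega)
  rcases Nat.lt_or_ge i 259 with h4 | h4
  · exact top_sound _ _ top4 i (by omega) (by omega)
  rcases Nat.lt_or_ge i 266 with h5 | h5
  · exact top_sound _ _ top5 i (by omega) (by omega)
  rcases Nat.lt_or_ge i 272 with h6 | h6
  · exact top_sound _ _ top6 i (by omega) (by omega)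
  rcases Nat.lt_or_ge i 279 with h7 | h7
  · exact top_sound _ _ top7 i (by omega) (by omega)
  rcases Nat.lt_or_ge i 285 with h8 | h8
  · exact top_sound _ _ top8 i (by omega) (by omega)
  rcases Nat.lt_or_ge i 291 with h9 | h9
  · exact top_sound _ _ top9 i (by omega) (by omega)
  rcases Nat.lt_or_ge i 298 with h10 | h10
  · exact top_sound _ _ top10 i (by omega) (by omega)
  rcases Nat.lt_or_ge i 304 with h11 | h11
  · exact top_sound _ _ top11 i (by omega) (by omega)
  rcases Nat.lt_or_ge i 311 with h12 | h12
  · exact top_sound _ _ top12 i (by omega) (by omega)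
  rcases Nat.lt_or_ge i 317 with h13 | h13
  · exact top_sound _ _ top13 i (by omega) (by omega)
  rcases Nat.lt_or_ge i 322 with h14 | h14
  · exact top_sound _ _ top14 i (by omega) (by omega)
  rcases Nat.lt_or_ge i 326 with h15 | h15
  · exact top_sound _ _ top15 i (by omega) (by omega)
  rcases Nat.lt_or_ge i 329 with h16 | h16
  · exact top_sound _ _ top16 i (by omega) (by omega)
  rcases Nat.lt_or_ge i 332 with h17 | h17
  · exact top_sound _ _ top17 i (by omega) (by omega)
  rcases Nat.lt_or_ge i 335 with h18 | h18
  · exact top_sound _ _ top18 i (by omega) (by omega)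
  rcases Nat.lt_or_ge i 338 with h19 | h19
  · exact top_sound _ _ top19 i (by omega) (by omega)
  rcases Nat.lt_or_ge i 341 with h20 | h20
  · exact top_sound _ _ top20 i (by omega) (by omega)
  rcases Nat.lt_or_ge i 344 with h21 | h21
  · exact top_sound _ _ top21 i (by omega) (by omega)
  rcases Nat.lt_or_ge i 347 with h22 | h22
  · exact top_sound _ _ top22 i (by omega) (by omega)
  rcases Nat.lt_or_ge i 349 with h23 | h23
  · exact top_sound _ _ top23 i (by omega) (by omega)
  rcases Nat.lt_or_ge i 351 with h24 | h24
  · exact top_sound _ _ top24 i (by omega) (by omega)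
  exact top_sound _ _ top25 i (by omega) (by omega)

/-- Any clique among the vertices `0, …, 351` has at most five elements. -/
theorem no_six (s : Finset ℕ) (hs : ∀ v ∈ s, v < 352)
    (hadj : ∀ v ∈ s, ∀ w ∈ s, v ≠ w → G.testBit (416 * v + w) = true) : s.card ≤ 5 :=
  no_six_of top_all s hs hadj

theorem no_six_fin (s : Finset (Fin 416)) (hs : ∀ v ∈ s, v.val < 352)
    (hadj : ∀ v ∈ s, ∀ w ∈ s, v ≠ w → G.testBit (416 * v.val + w.val) = true) : s.card ≤ 5 := by
  have h := no_six (s.map Fin.valEmbedding) ?_ ?_
  · rwa [Finset.card_map] at h
  · intro v hv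
    obtain ⟨v', hv', rfl⟩ := Finset.mem_map.1 hv
    exact hs v' hv'
  · intro v hv w hw hvw
    obtain ⟨v', hv', rfl⟩ := Finset.mem_map.1 hv
    obtain ⟨w', hw', rfl⟩ := Finset.mem_map.1 hw
    exact hadj v' hv' w' hw' (fun h => hvw (h ▸ rfl))

end Vale.Agent.P052
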