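import Vale.Agent.P052.Count
import Vale.Agent.P052.NoSix

/-!
# P052: the clique bound in terms of `Adj`
-/

namespace Vale.Agent.P052

/-- A clique among the vertices `0, …, 351` has at most five elements. -/
theorem hclq (s : Finset (Fin 416)) (h : ∀ v ∈ s, (v : ℕ) < 352)
    (hadj : ∀ v ∈ s, ∀ w ∈ s, v ≠ w → Adj v w) : s.card ≤ 5 := by
  refine no_six_fin s h fun v hv w hw hvw => ?_
  have h1 : (row v).testBit w = true := hadj v hv w hw hvw
  have h2 := row_testBit (v : ℕ) w.isLt
  rw [h2] at h1
  exact h1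

end Vale.Agent.P052
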